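import Vale.Agent.Lib.P248.PL4
import Vale.Agent.Lib.P074.Defs

open MeasureTheory Set
open scoped ENNReal NNReal RealInnerProductSpace

namespace Vale.Agent.Lib.P074H

open Vale.Agent.Lib.P074

variable {d : ℕ}

/-- Prekopa-Leindler with equal weights on Euclidean space. -/
theorem pl_euclid {f g h : E d → ℝ≥0∞} (hf : Measurable f) (hg : Measurable g) (hh : Measurable h)
    (H : ∀ x y, f x ^ (1 / 2 : ℝ) * g y ^ (1 / 2 : ℝ) ≤ h ((1 / 2 : ℝ) • x + (1 / 2 : ℝ) • y)) :
    (∫⁻ x, f x) ^ (1 / 2 : ℝ) * (∫⁻ x, g x) ^ (1 / 2 : ℝ) ≤ ∫⁻ x, h x := by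
  have mp := PiLp.volume_preserving_toLp (Fin d)
  have hΦ : Measurable (WithLp.toLp 2 : (Fin d → ℝ) → E d) := mp.measurable
  have red : ∀ F : E d → ℝ≥0∞, Measurable F → ∫⁻ x, F x = ∫⁻ x, F (WithLp.toLp 2 x) := by
    intro F hF
    exact (mp.lintegral_comp hF).symm
  rw [red f hf, red g hg, red h hh]
  have h1 : (0 : ℝ) < 1 / 2 := by norm_num
  have h2 : (1 / 2 : ℝ) < 1 := by norm_num
  have e12 : (1 - 1 / 2 : ℝ) = 1 / 2 := by norm_num
  have := Vale.Agent.Lib.P248.prekopa_leindler (V := Fin d)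
    (f := fun x => f (WithLp.toLp 2 x)) (g := fun x => g (WithLp.toLp 2 x))
    (h := fun x => h (WithLp.toLp 2 x)) (hf.comp hΦ) (hg.comp hΦ) (hh.comp hΦ) h1 h2 (by
      intro x y
      rw [e12]
      have e : WithLp.toLp 2 ((1 / 2 : ℝ) • x + (1 / 2 : ℝ) • y) =
          (1 / 2 : ℝ) • (WithLp.toLp 2 x : E d) + (1 / 2 : ℝ) • (WithLp.toLp 2 y : E d) := by
        rfl
      rw [e]
      exact H _ _)
  rw [e12] at this
  exact this

/-- `ofReal` of an integral is at most the lower integral of `ofReal`. -/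
theorem ofReal_integral_le {X : Type*} [MeasurableSpace X] {μ : Measure X} {g : X → ℝ}
    (hg : Integrable g μ) : ENNReal.ofReal (∫ x, g x ∂μ) ≤ ∫⁻ x, ENNReal.ofReal (g x) ∂μ := by
  have hpos : Integrable (fun x => max (g x) 0) μ := hg.pos_part
  have h1 : ∫ x, g x ∂μ ≤ ∫ x, max (g x) 0 ∂μ :=
    integral_mono hg hpos fun x => le_max_left _ _
  have h2 : ENNReal.ofReal (∫ x, max (g x) 0 ∂μ) = ∫⁻ x, ENNReal.ofReal (max (g x) 0) ∂μ :=
    ofReal_integral_eq_lintegral_ofReal hpos (Filter.Eventually.of_forall fun x => le_max_right _ _)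
  have h3 : ∀ x, ENNReal.ofReal (max (g x) 0) = ENNReal.ofReal (g x) := by
    intro x
    rcases le_total (g x) 0 with h | h
    · rw [max_eq_right h, ENNReal.ofReal_zero, ENNReal.ofReal_of_nonpos h]
    · rw [max_eq_left h]
  calc ENNReal.ofReal (∫ x, g x ∂μ) ≤ ENNReal.ofReal (∫ x, max (g x) 0 ∂μ) :=
        ENNReal.ofReal_le_ofReal h1
    _ = ∫⁻ x, ENNReal.ofReal (g x) ∂μ := by
        rw [h2]
        exact lintegral_congr h3

/-- The pointwise input of the linear Prekopa-Leindler inequality. -/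
theorem sqrt_mul_le_of_add {s t u : ℝ} (hu : 0 ≤ u) (h : s + t ≤ 2 * u) :
    ENNReal.ofReal s ^ (1 / 2 : ℝ) * ENNReal.ofReal t ^ (1 / 2 : ℝ) ≤ ENNReal.ofReal u := by
  have h0 : (0 : ℝ) < 1 / 2 := by norm_num
  rcases le_or_gt s 0 with hs | hs
  · rw [ENNReal.ofReal_of_nonpos hs, ENNReal.zero_rpow_of_pos h0, zero_mul]
    exact zero_le
  rcases le_or_gt t 0 with ht | ht
  · rw [ENNReal.ofReal_of_nonpos ht, ENNReal.zero_rpow_of_pos h0, mul_zero]
    exact zero_le
  rw [ENNReal.ofReal_rpow_of_nonneg hs.le h0.le, ENNReal.ofReal_rpow_of_nonneg ht.le h0.le,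
    ← ENNReal.ofReal_mul (by positivity), ← Real.sqrt_eq_rpow, ← Real.sqrt_eq_rpow]
  apply ENNReal.ofReal_le_ofReal
  have h1 := Real.sq_sqrt hs.le
  have h2 := Real.sq_sqrt ht.le
  nlinarith [sq_nonneg (Real.sqrt s - Real.sqrt t)]

/-- **Linear Prekopa-Leindler inequality**. If `F ≥ 0` on `Z`, the midpoints of `A` and `B` lie in
`Z` and `F (midpoint) ≥ (F₀ x + F₁ y) / 2`, then
`∫_Z F ≥ (e / 2) ∫_A F₀ + (1 / (2 e)) ∫_B F₁`, with `e = √(|B| / |A|)`. -/
theorem linear_pl {A B Z : Set (E d)} (hA : MeasurableSet A) (hB : MeasurableSet B)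
    (hZ : MeasurableSet Z) {a b : ℝ} (ha : (volume A).toReal = a) (hb : (volume B).toReal = b)
    (ha0 : 0 < a) (hb0 : 0 < b) {F F₀ F₁ : E d → ℝ} (hF : Measurable F) (hF₀ : Measurable F₀)
    (hF₁ : Measurable F₁) (hFi : IntegrableOn F Z) (hF₀i : IntegrableOn F₀ A)
    (hF₁i : IntegrableOn F₁ B) (hF0 : ∀ z ∈ Z, 0 ≤ F z)
    (hmem : ∀ x ∈ A, ∀ y ∈ B, (1 / 2 : ℝ) • x + (1 / 2 : ℝ) • y ∈ Z)
    (hmid : ∀ x ∈ A, ∀ y ∈ B, F₀ x + F₁ y ≤ 2 * F ((1 / 2 : ℝ) • x + (1 / 2 : ℝ) • y)) :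
    Real.sqrt (b / a) / 2 * (∫ x in A, F₀ x) + 1 / (2 * Real.sqrt (b / a)) * (∫ x in B, F₁ x) ≤
      ∫ z in Z, F z := by
  have hAfin : volume A ≠ ∞ := by
    intro h
    rw [h] at ha
    simp at ha
    linarith
  have hBfin : volume B ≠ ∞ := by
    intro h
    rw [h] at hb
    simp at hb
    linarith
  set e : ℝ := Real.sqrt (b / a) with he
  have he0 : 0 < e := Real.sqrt_pos.mpr (div_pos hb0 ha0)
  have he2 : e ^ 2 = b / a := Real.sq_sqrt (div_pos hb0 ha0).le
  set U : ℝ := ∫ x in A, F₀ x with hU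
  set V : ℝ := ∫ x in B, F₁ x with hV
  set L : ℝ := e / 2 * U + 1 / (2 * e) * V with hL
  have hZnn : 0 ≤ ∫ z in Z, F z := setIntegral_nonneg hZ hF0
  by_cases hL0 : L ≤ 0
  · exact hL0.trans hZnn
  push Not at hL0
  set δ : ℝ := (b * U - a * V) / (2 * a * b) with hδ
  set f₀ : E d → ℝ≥0∞ := A.indicator fun x => ENNReal.ofReal (F₀ x - δ) with hf₀
  set f₁ : E d → ℝ≥0∞ := B.indicator fun x => ENNReal.ofReal (F₁ x + δ) with hf₁
  set h : E d → ℝ≥0∞ := Z.indicator fun x => ENNReal.ofReal (F x) with hh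
  have hf₀m : Measurable f₀ := (hF₀.sub_const δ).ennreal_ofReal.indicator hA
  have hf₁m : Measurable f₁ := (hF₁.add_const δ).ennreal_ofReal.indicator hB
  have hhm : Measurable h := hF.ennreal_ofReal.indicator hZ
  have h12 : (0 : ℝ) < 1 / 2 := by norm_num
  have key := pl_euclid hf₀m hf₁m hhm (by
    intro x y
    by_cases hx : x ∈ A
    · by_cases hy : y ∈ B
      · have hz := hmem x hx y hy
        simp only [hf₀, hf₁, hh, indicator_of_mem hx, indicator_of_mem hy, indicator_of_mem hz]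
        apply sqrt_mul_le_of_add (hF0 _ hz)
        have := hmid x hx y hy
        linarith
      · simp only [hf₁, indicator_of_notMem hy, ENNReal.zero_rpow_of_pos h12, mul_zero]
        exact zero_le
    · simp only [hf₀, indicator_of_notMem hx, ENNReal.zero_rpow_of_pos h12, zero_mul]
      exact zero_le)
  -- the three integrals
  have i0 : ∫ x in A, (F₀ x - δ) = U - δ * a := by
    rw [integral_sub hF₀i (integrableOn_const hAfin), setIntegral_const, smul_eq_mul, Measure.real, ha,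
      mul_comm a]
  have i1 : ∫ x in B, (F₁ x + δ) = V + δ * b := by
    rw [integral_add hF₁i (integrableOn_const hBfin), setIntegral_const, smul_eq_mul, Measure.real, hb,
      mul_comm b]
  have e0 : U - δ * a = L / e := by
    rw [hL, hδ]
    have hb' : b = e ^ 2 * a := by rw [he2]; field_simp
    rw [hb']
    field_simp
    ring
  have e1 : V + δ * b = e * L := by
    rw [hL, hδ]
    have hb' : b = e ^ 2 * a := by rw [he2]; field_simp
    rw [hb']
    field_simp
    ring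
  have l0 : ENNReal.ofReal (L / e) ≤ ∫⁻ x, f₀ x := by
    rw [hf₀, lintegral_indicator hA, ← e0, ← i0]
    exact ofReal_integral_le (hF₀i.sub (integrableOn_const hAfin))
  have l1 : ENNReal.ofReal (e * L) ≤ ∫⁻ x, f₁ x := by
    rw [hf₁, lintegral_indicator hB, ← e1, ← i1]
    exact ofReal_integral_le (hF₁i.add (integrableOn_const hBfin))
  have l2 : ∫⁻ x, h x = ENNReal.ofReal (∫ z in Z, F z) := by
    rw [hh, lintegral_indicator hZ]
    refine (ofReal_integral_eq_lintegral_ofReal hFi ?_).symm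
    filter_upwards [ae_restrict_mem hZ] with z hz
    exact hF0 z hz
  have hfin : ENNReal.ofReal L ≤ ENNReal.ofReal (∫ z in Z, F z) := by
    rw [← l2]
    refine le_trans (le_of_eq ?_) (le_trans (mul_le_mul' (ENNReal.rpow_le_rpow l0 h12.le)
      (ENNReal.rpow_le_rpow l1 h12.le)) key)
    rw [ENNReal.ofReal_rpow_of_nonneg (by positivity) h12.le,
      ENNReal.ofReal_rpow_of_nonneg (by positivity) h12.le,
      ← ENNReal.ofReal_mul (by positivity), ← Real.sqrt_eq_rpow, ← Real.sqrt_eq_rpow,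
      ← Real.sqrt_mul (by positivity)]
    congr 1
    have : L / e * (e * L) = L ^ 2 := by
      field_simp
    rw [this, Real.sqrt_sq hL0.le]
  exact (ENNReal.ofReal_le_ofReal_iff hZnn).mp hfin

end Vale.Agent.Lib.P074H
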