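import Vale.Agent.Lib.P074H.LinPL
import Vale.Agent.Lib.P074H.Cells

open MeasureTheory Set
open scoped ENNReal NNReal RealInnerProductSpace

namespace Vale.Agent.Lib.P074H

open Vale.Agent.Lib.P074

variable {d : ℕ} {ι : Type*} [Fintype ι] [Nonempty ι]

/-- The concave test function. -/
noncomputable def eta (R : ℝ) (x : E d) : ℝ := (R ^ 2 - ‖x‖ ^ 2) / 2

theorem continuous_eta (R : ℝ) : Continuous (eta R : E d → ℝ) := by
  unfold eta
  fun_prop

theorem eta_nonneg {R : ℝ} {x : E d} (hR : ‖x‖ ≤ R) : 0 ≤ eta R x := by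
  unfold eta
  have h0 := norm_nonneg x
  have : ‖x‖ ^ 2 ≤ R ^ 2 := pow_le_pow_left₀ h0 hR 2
  linarith

theorem eta_le {R : ℝ} (x : E d) : eta R x ≤ R ^ 2 / 2 := by
  unfold eta
  have := sq_nonneg ‖x‖
  linarith

/-- Parallelogram law for `eta`. -/
theorem eta_mid (R : ℝ) (x y : E d) :
    2 * eta R ((1 / 2 : ℝ) • x + (1 / 2 : ℝ) • y) = eta R x + eta R y + ‖y - x‖ ^ 2 / 4 := by
  unfold eta
  have h1 : ‖(1 / 2 : ℝ) • x + (1 / 2 : ℝ) • y‖ ^ 2 =
      (‖x‖ ^ 2 + 2 * ⟪x, y⟫ + ‖y‖ ^ 2) / 4 := by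
    rw [@norm_add_sq_real, norm_smul, norm_smul, inner_smul_left, inner_smul_right]
    simp only [Real.norm_eq_abs, abs_of_pos (show (0 : ℝ) < 1 / 2 by norm_num)]
    simp
    ring
  have h2 : ‖y - x‖ ^ 2 = ‖y‖ ^ 2 - 2 * ⟪x, y⟫ + ‖x‖ ^ 2 := by
    rw [@norm_sub_sq_real, real_inner_comm]
  rw [h1, h2]
  ring

/-- `eta` is `R`-Lipschitz on the ball of radius `R`. -/
theorem eta_sub_le {R : ℝ} {x y : E d} (hx : ‖x‖ ≤ R) (hy : ‖y‖ ≤ R) :
    |eta R y - eta R x| ≤ R * ‖y - x‖ := by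
  unfold eta
  have h1 : (R ^ 2 - ‖y‖ ^ 2) / 2 - (R ^ 2 - ‖x‖ ^ 2) / 2 = (‖x‖ - ‖y‖) * ((‖x‖ + ‖y‖) / 2) := by ring
  rw [h1, abs_mul]
  have h2 : |‖x‖ - ‖y‖| ≤ ‖y - x‖ := by
    rw [norm_sub_rev]
    exact abs_norm_sub_norm_le x y
  have h3 : |(‖x‖ + ‖y‖) / 2| ≤ R := by
    rw [abs_of_nonneg (by positivity)]
    linarith
  calc |‖x‖ - ‖y‖| * |(‖x‖ + ‖y‖) / 2| ≤ ‖y - x‖ * R :=
        mul_le_mul h2 h3 (abs_nonneg _) (norm_nonneg _)
    _ = R * ‖y - x‖ := mul_comm _ _

section cells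

variable {K : Set (E d)} {b : ι → E d} {m ψ : ι → ℝ} {sel : E d → ι}

theorem measurableSet_cell {K : Set (E d)} (hK : IsCompact K) {sel : E d → ι}
    (h : ∀ i, MeasurableSet (sel ⁻¹' {i})) (i : ι) : MeasurableSet (cell K sel i) :=
  hK.isClosed.measurableSet.inter (h i)

theorem cell_subset (K : Set (E d)) (sel : E d → ι) (i : ι) : cell K sel i ⊆ K :=
  inter_subset_left

/-- Continuous functions are integrable on cells. -/
theorem integrableOn_cell (hK : IsCompact K) {f : E d → ℝ} (hf : Continuous f) (i : ι) :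
    IntegrableOn f (cell K sel i) :=
  (hf.continuousOn.integrableOn_compact hK).mono_set (cell_subset K sel i)

theorem integrableOn_id_cell (hK : IsCompact K) (i : ι) :
    IntegrableOn (fun x : E d => x) (cell K sel i) :=
  (continuous_id.continuousOn.integrableOn_compact hK).mono_set (cell_subset K sel i)

/-- Integrals over a finite measurable partition. -/
theorem sum_integral_cell (hK : IsCompact K) (hsel : ∀ i, MeasurableSet (sel ⁻¹' {i})) {f : E d → ℝ}
    (hf : Continuous f) : ∑ i, ∫ x in cell K sel i, f x = ∫ x in K, f x := by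
  have hU : ⋃ i, cell K sel i = K := by
    ext x
    simp [cell]
  have hd : Pairwise (Function.onFun (AEDisjoint (volume : Measure (E d))) fun i => cell K sel i) := by
    intro i j hij
    apply Disjoint.aedisjoint
    rw [Set.disjoint_left]
    rintro x ⟨-, hx⟩ ⟨-, hy⟩
    exact hij ((show sel x = i from hx).symm.trans hy)
  have := integral_iUnion_ae (μ := volume) (s := fun i => cell K sel i) (f := f)
    (fun i => (measurableSet_cell hK hsel i).nullMeasurableSet) hd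
    (by rw [hU]; exact hf.continuousOn.integrableOn_compact hK)
  rw [hU, tsum_fintype] at this
  exact this.symm

/-- The closed cell of a weight vector. -/
def ccell (K : Set (E d)) (b : ι → E d) (ψ : ι → ℝ) (i : ι) : Set (E d) :=
  {x | x ∈ K ∧ Mx b ψ x ≤ ⟪x, b i⟫ - ψ i}

theorem measurableSet_ccell (hK : IsCompact K) (b : ι → E d) (ψ : ι → ℝ) (i : ι) :
    MeasurableSet (ccell K b ψ i) := by
  refine hK.isClosed.measurableSet.inter ?_
  exact (isClosed_le (continuous_Mx b ψ) (by fun_prop)).measurableSet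

theorem ccell_subset (K : Set (E d)) (b : ι → E d) (ψ : ι → ℝ) (i : ι) : ccell K b ψ i ⊆ K :=
  fun _ hx => hx.1

/-- Integrals over the closed cells add up, when the sites are distinct. -/
theorem sum_integral_ccell (hK : IsCompact K) (hb : Function.Injective b) (ψ : ι → ℝ) {f : E d → ℝ}
    (hf : Continuous f) : ∑ i, ∫ x in ccell K b ψ i, f x = ∫ x in K, f x := by
  have hU : ⋃ i, ccell K b ψ i = K := by
    ext x
    simp only [mem_iUnion]
    constructor
    · rintro ⟨i, hi⟩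
      exact hi.1
    · intro hx
      obtain ⟨i, hi⟩ := exists_eq_Mx b ψ x
      exact ⟨i, hx, hi.le⟩
  have hd : Pairwise (Function.onFun (AEDisjoint (volume : Measure (E d))) fun i => ccell K b ψ i) := by
    intro i j hij
    change volume (ccell K b ψ i ∩ ccell K b ψ j) = 0
    apply measure_mono_null _ (volume_hyperplane (v := b i - b j)
      (sub_ne_zero.mpr fun h => hij (hb h)) (ψ i - ψ j))
    rintro x ⟨h1, h2⟩
    have h3 := h1.2
    have h4 := h2.2
    have h5 := le_Mx b ψ x i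
    have h6 := le_Mx b ψ x j
    change ⟪x, b i - b j⟫ = ψ i - ψ j
    rw [inner_sub_right]
    linarith
  have := integral_iUnion_ae (μ := volume) (s := fun i => ccell K b ψ i) (f := f)
    (fun i => (measurableSet_ccell hK b ψ i).nullMeasurableSet) hd
    (by rw [hU]; exact hf.continuousOn.integrableOn_compact hK)
  rw [hU, tsum_fintype] at this
  exact this.symm

end cells

/-- Midpoints of cells lie in the cell of the mean weight. -/
theorem mid_mem_ccell {K : Set (E d)} (hconv : Convex ℝ K) {b : ι → E d} {ψ ψ' : ι → ℝ}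
    {sel sel' : E d → ι} (hs : ∀ x, Mx b ψ x = ⟪x, b (sel x)⟫ - ψ (sel x))
    (hs' : ∀ x, Mx b ψ' x = ⟪x, b (sel' x)⟫ - ψ' (sel' x)) {i : ι} {x y : E d}
    (hx : x ∈ cell K sel i) (hy : y ∈ cell K sel' i) :
    (1 / 2 : ℝ) • x + (1 / 2 : ℝ) • y ∈ ccell K b (fun j => (ψ j + ψ' j) / 2) i := by
  refine ⟨hconv hx.1 hy.1 (by norm_num) (by norm_num) (by norm_num), ?_⟩
  apply Mx_le
  intro k
  have hxi : sel x = i := hx.2
  have hyi : sel' y = i := hy.2
  have h1 := le_Mx b ψ x k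
  have h2 := le_Mx b ψ' y k
  rw [hs x, hxi] at h1
  rw [hs' y, hyi] at h2
  simp only [inner_add_left, inner_smul_left]
  simp
  linarith

/-- The algebra of the cell inequality. -/
theorem cell_alg {e a a' M M' q q' N L R Zv : ℝ} (he0 : 0 < e) (ha : 0 < a) (ha' : 0 < a')
    (hm : a' = e ^ 2 * a) (hin : q' / a' - q / a = N) (hN : 0 ≤ N)
    (hLsq : L ^ 2 ≤ N / 8 + 2 * ((e - 1) ^ 2 * R ^ 2))
    (hmain : e / 2 * (M - (q / 4 + (e - 1) * M) - L ^ 2 / 2 * a) +
      1 / (2 * e) * (M' + (q' / 4 + (e - 1) * M') - L ^ 2 / 2 * a') ≤ Zv) :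
    (e - e ^ 2 / 2) * M + M' / 2 + e * a / 16 * N - e * a * (e - 1) ^ 2 * R ^ 2 ≤ Zv := by
  have hq' : q' = a' * (q / a + N) := by
    rw [← hin]
    field_simp
    ring
  have halg : e / 2 * (M - (q / 4 + (e - 1) * M) - L ^ 2 / 2 * a) +
      1 / (2 * e) * (M' + (q' / 4 + (e - 1) * M') - L ^ 2 / 2 * a') =
      (e - e ^ 2 / 2) * M + M' / 2 + e * a / 8 * N - e * a / 2 * L ^ 2 := by
    rw [hq', hm]
    field_simp
    ring
  rw [halg] at hmain
  have hs : 0 < e * a := mul_pos he0 ha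
  have h3 : e * a / 2 * L ^ 2 ≤ e * a / 2 * (N / 8 + 2 * ((e - 1) ^ 2 * R ^ 2)) := by
    gcongr
  nlinarith

section main

variable {K : Set (E d)} {b : ι → E d} {m m' ψ ψ' : ι → ℝ} {sel sel' : E d → ι}

/-- The integrals of the test functions on one cell. -/
theorem integral_test (hK : IsCompact K) {R : ℝ} (D : E d) (c t : ℝ) {S : Set (E d)} (hS : S ⊆ K)
    {a : ℝ} (ha : (volume S).toReal = a) (hSfin : volume S ≠ ∞) :
    ∫ x in S, (eta R x + c * (⟪D, x⟫ / 4 + t * eta R x) - (1 : ℝ) * (‖D‖ * 0) - 0) =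
      (∫ x in S, eta R x) + c * (⟪D, ∫ x in S, x⟫ / 4 + t * ∫ x in S, eta R x) := by
  have hη : IntegrableOn (eta R : E d → ℝ) S :=
    ((continuous_eta R).continuousOn.integrableOn_compact hK).mono_set hS
  have hid : IntegrableOn (fun x : E d => x) S :=
    (continuous_id.continuousOn.integrableOn_compact hK).mono_set hS
  have hin : IntegrableOn (fun x : E d => ⟪D, x⟫) S := by
    exact ((Continuous.continuousOn (by fun_prop)).integrableOn_compact hK).mono_set hS
  have e1 : (fun x : E d => eta R x + c * (⟪D, x⟫ / 4 + t * eta R x) - (1 : ℝ) * (‖D‖ * 0) - 0) =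
      fun x => (1 + c * t) * eta R x + (c / 4) * ⟪D, x⟫ := by
    ext x
    ring
  rw [e1, integral_add (hη.const_mul _) (hin.const_mul _), integral_const_mul, integral_const_mul,
    integral_inner hid D]
  ring

/-- The linear Prekopa-Leindler inequality on one cell, for the test function with vector `D`. -/
theorem cell_pl (hK : IsCompact K) (hconv : Convex ℝ K) {R : ℝ} (hR : ∀ x ∈ K, ‖x‖ ≤ R)
    (h : IsCfg K b m ψ sel) (h' : IsCfg K b m' ψ' sel') (i : ι) (hmi : 0 < m i) (hmi' : 0 < m' i)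
    (D : E d) {e L : ℝ} (he : e = Real.sqrt (m' i / m i)) (hL : L = ‖D‖ / 4 + |e - 1| * R) :
    e / 2 * ((∫ x in cell K sel i, eta R x) -
        (⟪D, mom K sel i⟫ / 4 + (e - 1) * ∫ x in cell K sel i, eta R x) - L ^ 2 / 2 * m i) +
      1 / (2 * e) * ((∫ x in cell K sel' i, eta R x) +
        (⟪D, mom K sel' i⟫ / 4 + (e - 1) * ∫ x in cell K sel' i, eta R x) - L ^ 2 / 2 * m' i) ≤
      ∫ x in ccell K b (fun j => (ψ j + ψ' j) / 2) i, eta R x := by
  have hAm : MeasurableSet (cell K sel i) := measurableSet_cell hK h.meas i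
  have hBm : MeasurableSet (cell K sel' i) := measurableSet_cell hK h'.meas i
  have hZm := measurableSet_ccell hK b (fun j => (ψ j + ψ' j) / 2) i
  have hηc : Continuous (eta R : E d → ℝ) := continuous_eta R
  set G : E d → ℝ := fun x => ⟪D, x⟫ / 4 + (e - 1) * eta R x with hG
  have hGc : Continuous G := by
    simp only [hG]
    fun_prop
  have hGL : ∀ x ∈ K, ∀ y ∈ K, G y - G x ≤ L * ‖y - x‖ := by
    intro x hx y hy
    have h1 : ⟪D, y⟫ - ⟪D, x⟫ ≤ ‖D‖ * ‖y - x‖ := by
      rw [← inner_sub_right]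
      exact real_inner_le_norm _ _
    have h2 := eta_sub_le (hR x hx) (hR y hy)
    have h3 : (e - 1) * (eta R y - eta R x) ≤ |e - 1| * (R * ‖y - x‖) := by
      calc (e - 1) * (eta R y - eta R x) ≤ |(e - 1) * (eta R y - eta R x)| := le_abs_self _
        _ = |e - 1| * |eta R y - eta R x| := abs_mul _ _
        _ ≤ _ := by gcongr
    simp only [hG, hL]
    nlinarith
  have hF₀c : Continuous fun x => eta R x - G x - L ^ 2 / 2 := by fun_prop
  have hF₁c : Continuous fun x => eta R x + G x - L ^ 2 / 2 := by fun_prop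
  have hmain := linear_pl hAm hBm hZm (h.mass i) (h'.mass i) hmi hmi' hηc.measurable
    hF₀c.measurable hF₁c.measurable
    ((hηc.continuousOn.integrableOn_compact hK).mono_set (ccell_subset K b _ i))
    (integrableOn_cell hK hF₀c i) (integrableOn_cell hK hF₁c i)
    (fun z hz => eta_nonneg (hR z hz.1))
    (fun x hx y hy => mid_mem_ccell hconv h.max h'.max hx hy)
    (by
      intro x hx y hy
      rw [eta_mid]
      have h1 := hGL x hx.1 y hy.1
      nlinarith [sq_nonneg (‖y - x‖ / 2 - L)])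
  rw [← he] at hmain
  have hAfin : volume (cell K sel i) ≠ ∞ :=
    measure_ne_top_of_subset (cell_subset K sel i) hK.measure_lt_top.ne
  have hBfin : volume (cell K sel' i) ≠ ∞ :=
    measure_ne_top_of_subset (cell_subset K sel' i) hK.measure_lt_top.ne
  have hmomA : ∫ x in cell K sel i, x = mom K sel i := rfl
  have hmomB : ∫ x in cell K sel' i, x = mom K sel' i := rfl
  have intA : ∫ x in cell K sel i, (eta R x - G x - L ^ 2 / 2) =
      (∫ x in cell K sel i, eta R x) -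
        (⟪D, mom K sel i⟫ / 4 + (e - 1) * ∫ x in cell K sel i, eta R x) - L ^ 2 / 2 * m i := by
    have i1 : IntegrableOn (fun x => eta R x - G x) (cell K sel i) :=
      integrableOn_cell hK (by fun_prop) i
    rw [integral_sub i1 (integrableOn_const hAfin), setIntegral_const, smul_eq_mul, Measure.real,
      h.mass i, mul_comm (m i)]
    congr 1
    have := integral_test (R := R) hK D (-1) (e - 1) (cell_subset K sel i) (h.mass i) hAfin
    rw [hmomA] at this
    have e1 : ∀ x, eta R x + (-1 : ℝ) * (⟪D, x⟫ / 4 + (e - 1) * eta R x) - (1 : ℝ) * (‖D‖ * 0) - 0 =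
        eta R x - G x := by
      intro x
      simp only [hG]
      ring
    simp only [e1] at this
    rw [this]
    ring
  have intB : ∫ x in cell K sel' i, (eta R x + G x - L ^ 2 / 2) =
      (∫ x in cell K sel' i, eta R x) +
        (⟪D, mom K sel' i⟫ / 4 + (e - 1) * ∫ x in cell K sel' i, eta R x) - L ^ 2 / 2 * m' i := by
    have i1 : IntegrableOn (fun x => eta R x + G x) (cell K sel' i) :=
      integrableOn_cell hK (by fun_prop) i
    rw [integral_sub i1 (integrableOn_const hBfin), setIntegral_const, smul_eq_mul, Measure.real,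
      h'.mass i, mul_comm (m' i)]
    congr 1
    have := integral_test (R := R) hK D 1 (e - 1) (cell_subset K sel' i) (h'.mass i) hBfin
    rw [hmomB] at this
    have e1 : ∀ x, eta R x + (1 : ℝ) * (⟪D, x⟫ / 4 + (e - 1) * eta R x) - (1 : ℝ) * (‖D‖ * 0) - 0 =
        eta R x + G x := by
      intro x
      simp only [hG]
      ring
    simp only [e1] at this
    rw [this]
    ring
  rw [intA, intB] at hmain
  exact hmain

/-- The inequality for one cell. -/
theorem cell_ineq (hK : IsCompact K) (hconv : Convex ℝ K) {R : ℝ} (hR : ∀ x ∈ K, ‖x‖ ≤ R)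
    (h : IsCfg K b m ψ sel) (h' : IsCfg K b m' ψ' sel') (i : ι) (hmi : 0 < m i) (hmi' : 0 < m' i) :
    (Real.sqrt (m' i / m i) - Real.sqrt (m' i / m i) ^ 2 / 2) * (∫ x in cell K sel i, eta R x) +
        (∫ x in cell K sel' i, eta R x) / 2 +
        Real.sqrt (m' i / m i) * m i / 16 *
          ‖(m' i)⁻¹ • mom K sel' i - (m i)⁻¹ • mom K sel i‖ ^ 2 -
        Real.sqrt (m' i / m i) * m i * (Real.sqrt (m' i / m i) - 1) ^ 2 * R ^ 2 ≤
      ∫ x in ccell K b (fun j => (ψ j + ψ' j) / 2) i, eta R x := by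
  set e : ℝ := Real.sqrt (m' i / m i) with he
  have he0 : 0 < e := Real.sqrt_pos.mpr (div_pos hmi' hmi)
  have he2 : e ^ 2 = m' i / m i := Real.sq_sqrt (div_pos hmi' hmi).le
  have hm'e : m' i = e ^ 2 * m i := by rw [he2]; field_simp
  set D : E d := (m' i)⁻¹ • mom K sel' i - (m i)⁻¹ • mom K sel i with hD
  have hmain := cell_pl hK hconv hR h h' i hmi hmi' D he rfl
  have hip : ⟪D, mom K sel i⟫ = m i * ⟪D, (m i)⁻¹ • mom K sel i⟫ := by
    rw [inner_smul_right, ← mul_assoc, mul_inv_cancel₀ hmi.ne', one_mul]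
  have hip' : ⟪D, mom K sel' i⟫ = m' i * ⟪D, (m' i)⁻¹ • mom K sel' i⟫ := by
    rw [inner_smul_right, ← mul_assoc, mul_inv_cancel₀ hmi'.ne', one_mul]
  have hin : ⟪D, mom K sel' i⟫ / m' i - ⟪D, mom K sel i⟫ / m i = ‖D‖ ^ 2 := by
    have : ‖D‖ ^ 2 = ⟪D, (m' i)⁻¹ • mom K sel' i⟫ - ⟪D, (m i)⁻¹ • mom K sel i⟫ := by
      rw [← inner_sub_right, ← hD, real_inner_self_eq_norm_sq]
    rw [hip, hip', this]
    field_simp
  have hLsq : (‖D‖ / 4 + |e - 1| * R) ^ 2 ≤ ‖D‖ ^ 2 / 8 + 2 * ((e - 1) ^ 2 * R ^ 2) := by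
    have : (|e - 1| * R) ^ 2 = (e - 1) ^ 2 * R ^ 2 := by
      rw [mul_pow, sq_abs]
    nlinarith [sq_nonneg (‖D‖ / 4 - |e - 1| * R)]
  exact cell_alg he0 hmi hmi' hm'e hin (by positivity) hLsq hmain

/-- **The key inequality**: the centroids of the Laguerre cells with fixed sites depend in a Lipschitz
way on the masses, with respect to the Hellinger distance, with a bound that does not depend on
the sites at all. -/
theorem lip (hK : IsCompact K) (hconv : Convex ℝ K) {R : ℝ} (hR : ∀ x ∈ K, ‖x‖ ≤ R)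
    (hb : Function.Injective b) (h : IsCfg K b m ψ sel) (h' : IsCfg K b m' ψ' sel')
    (hm : ∀ i, 0 < m i) (hm' : ∀ i, 0 < m' i) :
    ∑ i, Real.sqrt (m' i / m i) * m i *
        ‖(m' i)⁻¹ • mom K sel' i - (m i)⁻¹ • mom K sel i‖ ^ 2 ≤
      R ^ 2 * ∑ i, (4 + 16 * Real.sqrt (m' i / m i)) * ((Real.sqrt (m' i / m i) - 1) ^ 2 * m i) := by
  have hηc : Continuous (eta R : E d → ℝ) := continuous_eta R
  have hsum := Finset.sum_le_sum fun i (_ : i ∈ Finset.univ) =>
    cell_ineq hK hconv hR h h' i (hm i) (hm' i)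
  rw [sum_integral_ccell hK hb _ hηc] at hsum
  have hA := sum_integral_cell hK h.meas hηc
  have hB := sum_integral_cell hK h'.meas hηc
  set I : ℝ := ∫ x in K, eta R x with hI
  set e : ι → ℝ := fun i => Real.sqrt (m' i / m i) with he
  set M : ι → ℝ := fun i => ∫ x in cell K sel i, eta R x with hM
  set M' : ι → ℝ := fun i => ∫ x in cell K sel' i, eta R x with hM'
  set N : ι → ℝ := fun i => ‖(m' i)⁻¹ • mom K sel' i - (m i)⁻¹ • mom K sel i‖ ^ 2 with hN
  change ∑ i, ((e i - e i ^ 2 / 2) * M i + M' i / 2 + e i * m i / 16 * N i -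
    e i * m i * (e i - 1) ^ 2 * R ^ 2) ≤ I at hsum
  change ∑ i, M i = I at hA
  change ∑ i, M' i = I at hB
  change ∑ i, e i * m i * N i ≤ R ^ 2 * ∑ i, (4 + 16 * e i) * ((e i - 1) ^ 2 * m i)
  -- bound on `M`
  have hMle : ∀ i, M i ≤ R ^ 2 / 2 * m i := by
    intro i
    have hfin : volume (cell K sel i) ≠ ∞ :=
      measure_ne_top_of_subset (cell_subset K sel i) hK.measure_lt_top.ne
    calc M i ≤ ∫ _ in cell K sel i, R ^ 2 / 2 :=
          setIntegral_mono (integrableOn_cell hK hηc i) (integrableOn_const hfin)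
            (fun x => eta_le x)
      _ = R ^ 2 / 2 * m i := by
          rw [setIntegral_const, smul_eq_mul, Measure.real, h.mass i, mul_comm]
  -- summing up
  have h1 : ∑ i, (e i * m i / 16 * N i) ≤ ∑ i, ((e i - 1) ^ 2 / 2 * M i + e i * m i * (e i - 1) ^ 2 * R ^ 2) := by
    have e1 : ∑ i, ((e i - e i ^ 2 / 2) * M i + M' i / 2 + e i * m i / 16 * N i -
        e i * m i * (e i - 1) ^ 2 * R ^ 2) =
        ∑ i, (e i - e i ^ 2 / 2) * M i + (∑ i, M' i) / 2 + ∑ i, (e i * m i / 16 * N i) -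
          ∑ i, e i * m i * (e i - 1) ^ 2 * R ^ 2 := by
      rw [Finset.sum_sub_distrib, Finset.sum_add_distrib, Finset.sum_add_distrib, Finset.sum_div]
    rw [e1, hB] at hsum
    have e2 : ∑ i, ((e i - 1) ^ 2 / 2 * M i + e i * m i * (e i - 1) ^ 2 * R ^ 2) =
        ∑ i, M i / 2 - ∑ i, (e i - e i ^ 2 / 2) * M i + ∑ i, e i * m i * (e i - 1) ^ 2 * R ^ 2 := by
      rw [← Finset.sum_sub_distrib, ← Finset.sum_add_distrib]
      exact Finset.sum_congr rfl fun i _ => by ring
    rw [e2, ← Finset.sum_div, hA]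
    linarith
  have h2 : ∀ i, (e i - 1) ^ 2 / 2 * M i + e i * m i * (e i - 1) ^ 2 * R ^ 2 ≤
      R ^ 2 * ((4 + 16 * e i) * ((e i - 1) ^ 2 * m i)) / 16 := by
    intro i
    have h3 := hMle i
    have h4 : (e i - 1) ^ 2 / 2 * M i ≤ (e i - 1) ^ 2 / 2 * (R ^ 2 / 2 * m i) := by
      gcongr
    nlinarith
  calc ∑ i, e i * m i * N i = 16 * ∑ i, (e i * m i / 16 * N i) := by
        rw [Finset.mul_sum]
        exact Finset.sum_congr rfl fun i _ => by ring
    _ ≤ 16 * ∑ i, ((e i - 1) ^ 2 / 2 * M i + e i * m i * (e i - 1) ^ 2 * R ^ 2) := by gcongr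
    _ ≤ 16 * ∑ i, (R ^ 2 * ((4 + 16 * e i) * ((e i - 1) ^ 2 * m i)) / 16) := by
        gcongr with i _
        exact h2 i
    _ = R ^ 2 * ∑ i, (4 + 16 * e i) * ((e i - 1) ^ 2 * m i) := by
        rw [Finset.mul_sum, Finset.mul_sum]
        exact Finset.sum_congr rfl fun i _ => by ring

theorem norm_mom_le (hK : IsCompact K) {R : ℝ} (hR : ∀ x ∈ K, ‖x‖ ≤ R) {sel : E d → ι} {m : ι → ℝ}
    (hmass : ∀ i, (volume (cell K sel i)).toReal = m i) (i : ι) (hsel : MeasurableSet (cell K sel i)) :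
    ‖mom K sel i‖ ≤ R * m i := by
  have hfin : volume (cell K sel i) < ∞ :=
    (measure_mono (cell_subset K sel i)).trans_lt hK.measure_lt_top
  have := norm_setIntegral_le_of_norm_le_const (μ := volume) (s := cell K sel i) (f := fun x : E d => x)
    (C := R) hfin (fun x hx => hR x hx.1)
  rw [Measure.real, hmass i] at this
  exact this

/-- The form of `lip` needed for the mixed difference: moments change at most by the Hellinger
distance of the masses. -/
theorem lip_moment (hK : IsCompact K) (hconv : Convex ℝ K) {R : ℝ} (hR : ∀ x ∈ K, ‖x‖ ≤ R)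
    (hR0 : 0 ≤ R) (hb : Function.Injective b) (h : IsCfg K b m ψ sel) (h' : IsCfg K b m' ψ' sel')
    (hm : ∀ i, 0 < m i) (hle : ∀ i, m i / 4 ≤ m' i ∧ m' i ≤ 4 * m i) (Δ : ι → E d) :
    |∑ i, ⟪mom K sel' i - mom K sel i, Δ i⟫| ≤
      10 * R * Real.sqrt (∑ i, (m' i - m i) ^ 2 / m i) * Real.sqrt (∑ i, m i * ‖Δ i‖ ^ 2) := by
  have hm' : ∀ i, 0 < m' i := fun i => lt_of_lt_of_le (by linarith [hm i]) (hle i).1
  set Q : ℝ := ∑ i, (m' i - m i) ^ 2 / m i with hQ
  set W : ℝ := ∑ i, m i * ‖Δ i‖ ^ 2 with hW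
  have hQ0 : 0 ≤ Q := Finset.sum_nonneg fun i _ => div_nonneg (sq_nonneg _) (hm i).le
  have hW0 : 0 ≤ W := Finset.sum_nonneg fun i _ => mul_nonneg (hm i).le (sq_nonneg _)
  set e : ι → ℝ := fun i => Real.sqrt (m' i / m i) with he
  set D : ι → E d := fun i => (m' i)⁻¹ • mom K sel' i - (m i)⁻¹ • mom K sel i with hD
  have hlip := lip hK hconv hR hb h h' hm hm'
  have he2 : ∀ i, e i ^ 2 = m' i / m i := fun i => Real.sq_sqrt (div_pos (hm' i) (hm i)).le
  have he0 : ∀ i, 0 ≤ e i := fun i => Real.sqrt_nonneg _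
  have heL : ∀ i, 1 / 2 ≤ e i := by
    intro i
    apply Real.le_sqrt_of_sq_le
    rw [le_div_iff₀ (hm i)]
    nlinarith [(hle i).1]
  have heU : ∀ i, e i ≤ 2 := by
    intro i
    apply Real.sqrt_le_iff.mpr
    refine ⟨by norm_num, ?_⟩
    rw [div_le_iff₀ (hm i)]
    nlinarith [(hle i).2]
  -- the `(e - 1)` term
  have hterm : ∀ i, (e i - 1) ^ 2 * m i ≤ (m' i - m i) ^ 2 / m i := by
    intro i
    rw [le_div_iff₀ (hm i)]
    have h1 : m' i - m i = (e i - 1) * (e i + 1) * m i := by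
      have h2 : m' i = e i ^ 2 * m i := by
        rw [he2 i]
        field_simp [(hm i).ne']
      rw [h2]
      ring
    rw [h1]
    have h3 : 0 ≤ e i := he0 i
    have h4 : 1 ≤ (e i + 1) ^ 2 := by nlinarith
    have h5 : 0 ≤ (e i - 1) ^ 2 * m i * m i := by
      have := (hm i).le
      positivity
    nlinarith
  -- the `D` term
  have hDsum : ∑ i, m i * ‖D i‖ ^ 2 ≤ 72 * R ^ 2 * Q := by
    have h1 : ∑ i, m i * ‖D i‖ ^ 2 ≤ 2 * ∑ i, e i * m i * ‖D i‖ ^ 2 := by
      rw [Finset.mul_sum]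
      refine Finset.sum_le_sum fun i _ => ?_
      have h2 := heL i
      have h3 := (hm i).le
      have h4 : 0 ≤ m i * ‖D i‖ ^ 2 := by positivity
      nlinarith
    have h2 : ∑ i, (4 + 16 * e i) * ((e i - 1) ^ 2 * m i) ≤ 36 * Q := by
      rw [hQ, Finset.mul_sum]
      refine Finset.sum_le_sum fun i _ => ?_
      have h3 := heU i
      have h4 := heL i
      have h5 := hterm i
      have h6 : 0 ≤ (e i - 1) ^ 2 * m i := by
        have := (hm i).le
        positivity
      have h7 : (4 + 16 * e i) ≤ 36 := by linarith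
      nlinarith
    have h3 : R ^ 2 * ∑ i, (4 + 16 * e i) * ((e i - 1) ^ 2 * m i) ≤ R ^ 2 * (36 * Q) := by
      gcongr
    calc _ ≤ 2 * ∑ i, e i * m i * ‖D i‖ ^ 2 := h1
      _ ≤ 2 * (R ^ 2 * (36 * Q)) := by
          gcongr
          exact hlip.trans h3
      _ = 72 * R ^ 2 * Q := by ring
  -- the decomposition of the moments
  have hdec : ∀ i, mom K sel' i - mom K sel i =
      (m' i - m i) • ((m' i)⁻¹ • mom K sel' i) + m i • D i := by
    intro i
    have hp : mom K sel i = m i • ((m i)⁻¹ • mom K sel i) := by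
      rw [smul_smul, mul_inv_cancel₀ (hm i).ne', one_smul]
    have hp' : mom K sel' i = m' i • ((m' i)⁻¹ • mom K sel' i) := by
      rw [smul_smul, mul_inv_cancel₀ (hm' i).ne', one_smul]
    simp only [hD]
    generalize (m i)⁻¹ • mom K sel i = u at hp
    generalize (m' i)⁻¹ • mom K sel' i = u' at hp'
    rw [hp, hp', sub_smul, smul_sub]
    abel
  have hbar : ∀ i, ‖(m' i)⁻¹ • mom K sel' i‖ ≤ R := by
    intro i
    have h1 := norm_mom_le hK hR h'.mass i (measurableSet_cell hK h'.meas i)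
    rw [norm_smul, Real.norm_eq_abs, abs_of_pos (inv_pos.mpr (hm' i))]
    rw [inv_mul_le_iff₀ (hm' i)]
    linarith [mul_comm R (m' i)]
  have hpt : ∀ i, |⟪mom K sel' i - mom K sel i, Δ i⟫| ≤
      R * ((|m' i - m i| / Real.sqrt (m i)) * (Real.sqrt (m i) * ‖Δ i‖)) +
        (Real.sqrt (m i) * ‖D i‖) * (Real.sqrt (m i) * ‖Δ i‖) := by
    intro i
    have hs : Real.sqrt (m i) ^ 2 = m i := Real.sq_sqrt (hm i).le
    have hs0 : 0 < Real.sqrt (m i) := Real.sqrt_pos.mpr (hm i)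
    have e0 : ⟪mom K sel' i - mom K sel i, Δ i⟫ =
        (m' i - m i) * ⟪(m' i)⁻¹ • mom K sel' i, Δ i⟫ + m i * ⟪D i, Δ i⟫ := by
      rw [hdec i, inner_add_left]
      congr 1
      · exact real_inner_smul_left _ _ _
      · exact real_inner_smul_left _ _ _
    rw [e0]
    have e1 : R * ((|m' i - m i| / Real.sqrt (m i)) * (Real.sqrt (m i) * ‖Δ i‖)) =
        R * (|m' i - m i| * ‖Δ i‖) := by
      field_simp
    have e2 : (Real.sqrt (m i) * ‖D i‖) * (Real.sqrt (m i) * ‖Δ i‖) = m i * (‖D i‖ * ‖Δ i‖) := by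
      have e3 : (Real.sqrt (m i) * ‖D i‖) * (Real.sqrt (m i) * ‖Δ i‖) =
          Real.sqrt (m i) ^ 2 * (‖D i‖ * ‖Δ i‖) := by ring
      rw [e3, hs]
    rw [e1, e2]
    have b1 : |⟪(m' i)⁻¹ • mom K sel' i, Δ i⟫| ≤ R * ‖Δ i‖ :=
      (abs_real_inner_le_norm _ _).trans (by gcongr; exact hbar i)
    have b2 : |⟪D i, Δ i⟫| ≤ ‖D i‖ * ‖Δ i‖ := abs_real_inner_le_norm _ _
    calc _ ≤ |(m' i - m i) * ⟪(m' i)⁻¹ • mom K sel' i, Δ i⟫| + |m i * ⟪D i, Δ i⟫| := abs_add_le _ _
      _ = |m' i - m i| * |⟪(m' i)⁻¹ • mom K sel' i, Δ i⟫| + m i * |⟪D i, Δ i⟫| := by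
          rw [abs_mul, abs_mul, abs_of_pos (hm i)]
      _ ≤ |m' i - m i| * (R * ‖Δ i‖) + m i * (‖D i‖ * ‖Δ i‖) := by
          have := (hm i).le
          gcongr
      _ = _ := by ring
  have hS1 : ∑ i, (|m' i - m i| / Real.sqrt (m i)) * (Real.sqrt (m i) * ‖Δ i‖) ≤
      Real.sqrt Q * Real.sqrt W := by
    refine (Real.sum_mul_le_sqrt_mul_sqrt _ _ _).trans (le_of_eq ?_)
    congr 2
    · refine Finset.sum_congr rfl fun i _ => ?_
      rw [div_pow, sq_abs, Real.sq_sqrt (hm i).le]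
    · refine Finset.sum_congr rfl fun i _ => ?_
      rw [mul_pow, Real.sq_sqrt (hm i).le]
  have hS2 : ∑ i, (Real.sqrt (m i) * ‖D i‖) * (Real.sqrt (m i) * ‖Δ i‖) ≤ 9 * R * Real.sqrt Q * Real.sqrt W := by
    refine (Real.sum_mul_le_sqrt_mul_sqrt _ _ _).trans ?_
    have e1 : ∑ i, (Real.sqrt (m i) * ‖Δ i‖) ^ 2 = W := by
      refine Finset.sum_congr rfl fun i _ => ?_
      rw [mul_pow, Real.sq_sqrt (hm i).le]
    have e2 : ∑ i, (Real.sqrt (m i) * ‖D i‖) ^ 2 = ∑ i, m i * ‖D i‖ ^ 2 := by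
      refine Finset.sum_congr rfl fun i _ => ?_
      rw [mul_pow, Real.sq_sqrt (hm i).le]
    rw [e1, e2]
    have e3 : Real.sqrt (∑ i, m i * ‖D i‖ ^ 2) ≤ 9 * R * Real.sqrt Q := by
      apply Real.sqrt_le_iff.mpr
      refine ⟨by positivity, ?_⟩
      rw [mul_pow, Real.sq_sqrt hQ0, mul_pow]
      nlinarith [sq_nonneg R, mul_nonneg (sq_nonneg R) hQ0]
    have := Real.sqrt_nonneg W
    gcongr
  calc |∑ i, ⟪mom K sel' i - mom K sel i, Δ i⟫|
      ≤ ∑ i, |⟪mom K sel' i - mom K sel i, Δ i⟫| := Finset.abs_sum_le_sum_abs _ _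
    _ ≤ ∑ i, (R * ((|m' i - m i| / Real.sqrt (m i)) * (Real.sqrt (m i) * ‖Δ i‖)) +
        (Real.sqrt (m i) * ‖D i‖) * (Real.sqrt (m i) * ‖Δ i‖)) := Finset.sum_le_sum fun i _ => hpt i
    _ = R * ∑ i, (|m' i - m i| / Real.sqrt (m i)) * (Real.sqrt (m i) * ‖Δ i‖) +
        ∑ i, (Real.sqrt (m i) * ‖D i‖) * (Real.sqrt (m i) * ‖Δ i‖) := by
        rw [Finset.sum_add_distrib, Finset.mul_sum]
    _ ≤ R * (Real.sqrt Q * Real.sqrt W) + 9 * R * Real.sqrt Q * Real.sqrt W := by gcongr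
    _ = 10 * R * Real.sqrt Q * Real.sqrt W := by ring

end main

/-- Semi-discrete optimal transport in the volume normalisation. -/
theorem exists_cfg {K : Set (E d)} (hK : IsCompact K) (hpos : volume K ≠ 0) {b : ι → E d}
    (hb : Function.Injective b) {m : ι → ℝ} (hm : ∀ i, 0 < m i)
    (hsum : ∑ i, m i = (volume K).toReal) : ∃ ψ sel, IsCfg K b m ψ sel := by
  have hKfin : volume K ≠ ∞ := hK.measure_lt_top.ne
  have hKm : MeasurableSet K := hK.isClosed.measurableSet
  have hv : 0 < (volume K).toReal := ENNReal.toReal_pos hpos hKfin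
  have hprob : IsProbabilityMeasure (uniformProb K) := by
    constructor
    simp only [uniformProb, Measure.smul_apply, smul_eq_mul, Measure.restrict_apply_univ]
    exact ENNReal.inv_mul_cancel hpos hKfin
  obtain ⟨RK, hRK⟩ := hK.isBounded.exists_norm_le
  have hRK' : ∀ᵐ x ∂(uniformProb K), ‖x‖ ≤ RK := by
    have h1 : ∀ᵐ x ∂(volume.restrict K), ‖x‖ ≤ RK := by
      filter_upwards [ae_restrict_mem hKm] with x hx
      exact hRK x hx
    have hac : uniformProb K ≪ volume.restrict K := by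
      unfold uniformProb
      exact Measure.smul_absolutelyContinuous
    exact hac.ae_le h1
  have hRK0 : 0 ≤ RK := by
    by_contra hneg
    push Not at hneg
    have hempty : K = ∅ := by
      ext x
      simp only [mem_empty_iff_false, iff_false]
      intro hx
      exact absurd ((norm_nonneg x).trans (hRK x hx)) (not_le.mpr hneg)
    rw [hempty] at hpos
    simp at hpos
  have hac : uniformProb K ≪ volume := by
    have hac : uniformProb K ≪ volume.restrict K := by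
      unfold uniformProb
      exact Measure.smul_absolutelyContinuous
    exact hac.trans Measure.restrict_le_self.absolutelyContinuous
  have hsum' : ∑ i, m i / (volume K).toReal = 1 := by
    rw [← Finset.sum_div, hsum, div_self hv.ne']
  obtain ⟨ψ, sel, h1, h2, h3⟩ := exists_semidiscrete hRK' hRK0 hac hb
    (fun i => div_pos (hm i) hv) hsum'
  refine ⟨ψ, sel, ⟨h1, h2, fun i => ?_⟩⟩
  have h4 := h3 i
  have h5 : uniformProb K (sel ⁻¹' {i}) = (volume K)⁻¹ * volume (sel ⁻¹' {i} ∩ K) := by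
    unfold uniformProb
    rw [Measure.smul_apply, smul_eq_mul, Measure.restrict_apply (h1 i)]
  rw [h5] at h4
  have h6 : volume (cell K sel i) = volume K * ENNReal.ofReal (m i / (volume K).toReal) := by
    rw [← h4, ← mul_assoc, ENNReal.mul_inv_cancel hpos hKfin, one_mul, inter_comm]
    rfl
  rw [h6, ENNReal.toReal_mul, ENNReal.toReal_ofReal (div_pos (hm i) hv).le]
  field_simp

end Vale.Agent.Lib.P074H
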