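import Vale.Agent.Lib.P074H.Lip
import Vale.Agent.Lib.P074H.Limit

open MeasureTheory Set
open scoped ENNReal NNReal RealInnerProductSpace

namespace Vale.Agent.Lib.P074H

open Vale.Agent.Lib.P074

/-- **Telescoping along a path**, with finitely many bad times. -/
theorem tele {B : Set ℝ} (hB : B.Finite) {g g' β β' : ℝ → ℝ} {Λ : ℝ}
    (h1 : ∀ s t, s ∉ B → t ∉ B → 0 ≤ s → s ≤ t → t ≤ 1 → (t - s) * β' s ≤ g' t - g' s)
    (h2 : ∀ s t, s ∉ B → t ∉ B → 0 ≤ s → s ≤ t → t ≤ 1 → g t - g s ≤ (t - s) * β t)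
    (h2' : ∀ s t, s ∉ B → t ∉ B → 0 ≤ s → s ≤ t → t ≤ 1 → (t - s) * β s ≤ g t - g s)
    (h3 : ∀ s, s ∉ B → 0 ≤ s → s ≤ 1 → -Λ ≤ β' s - β s) (h0 : (0 : ℝ) ∉ B) (h4 : (1 : ℝ) ∉ B) :
    -Λ ≤ (g' 1 - g' 0) - (g 1 - g 0) := by
  -- monotonicity of `β`
  have hmono : ∀ s t, s ∉ B → t ∉ B → 0 ≤ s → s < t → t ≤ 1 → β s ≤ β t := by
    intro s t hs ht h0s hst ht1
    have h5 := h2 s t hs ht h0s hst.le ht1
    have h6 := h2' s t hs ht h0s hst.le ht1
    have h7 : 0 < t - s := sub_pos.mpr hst
    have h8 : (t - s) * β s ≤ (t - s) * β t := h6.trans h5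
    exact le_of_mul_le_mul_left h8 h7
  have hmono' : ∀ s t, s ∉ B → t ∉ B → 0 ≤ s → s ≤ t → t ≤ 1 → β s ≤ β t := by
    intro s t hs ht h0s hst ht1
    rcases hst.eq_or_lt with h | h
    · rw [h]
    · exact hmono s t hs ht h0s h ht1
  -- the one step bound
  have hstep : ∀ μ : ℝ, 0 < μ → ∀ s t, s ∉ B → t ∉ B → 0 ≤ s → s ≤ t → t ≤ 1 → t - s < μ →
      -(Λ * (t - s)) - μ * (β t - β s) ≤ ((g' t - g' s) - (g t - g s)) := by
    intro μ hμ s t hs ht h0s hst ht1 hlt
    have h5 := h1 s t hs ht h0s hst ht1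
    have h6 := h2 s t hs ht h0s hst ht1
    have h7 := h3 s hs h0s (hst.trans ht1)
    have h8 := hmono' s t hs ht h0s hst ht1
    have h9 : 0 ≤ t - s := sub_nonneg.mpr hst
    have h10 : (t - s) * (β t - β s) ≤ μ * (β t - β s) :=
      mul_le_mul_of_nonneg_right hlt.le (sub_nonneg.mpr h8)
    have h11 : (t - s) * (-Λ) ≤ (t - s) * (β' s - β s) := mul_le_mul_of_nonneg_left h7 h9
    nlinarith
  -- induction
  have hind : ∀ μ : ℝ, 0 < μ → ∀ n : ℕ, ∀ s t, s ∉ B → t ∉ B → 0 ≤ s → s ≤ t → t ≤ 1 →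
      t - s < (n + 1) * μ →
      -(Λ * (t - s)) - μ * (β t - β s) ≤ ((g' t - g' s) - (g t - g s)) := by
    intro μ hμ n
    induction n with
    | zero =>
      intro s t hs ht h0s hst ht1 hlt
      exact hstep μ hμ s t hs ht h0s hst ht1 (by simpa using hlt)
    | succ n ih =>
      intro s t hs ht h0s hst ht1 hlt
      by_cases hc : t - s < (n + 1) * μ
      · exact ih s t hs ht h0s hst ht1 hc
      push Not at hc
      push_cast at hlt
      have hne : t - (n + 1) * μ < s + μ := by nlinarith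
      obtain ⟨r, hr, hrB⟩ := (Set.Ioo_infinite hne).exists_notMem_finite hB
      have hn0 : (0 : ℝ) ≤ n := Nat.cast_nonneg n
      have hr1 : s < r := by nlinarith [hr.1]
      have hr2 : r < t := by nlinarith [hr.2]
      have h5 := hstep μ hμ s r hs hrB h0s hr1.le (hr2.le.trans ht1) (by linarith [hr.2])
      have h6 := ih r t hrB ht (h0s.trans hr1.le) hr2.le ht1 (by linarith [hr.1])
      nlinarith
  -- conclusion
  have hfin : ∀ μ : ℝ, 0 < μ → -Λ - μ * (β 1 - β 0) ≤ (g' 1 - g' 0) - (g 1 - g 0) := by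
    intro μ hμ
    obtain ⟨n, hn⟩ := exists_nat_gt (1 / μ)
    have h5 : (1 : ℝ) - 0 < (n + 1) * μ := by
      have h6 : 1 < n * μ := by
        rw [div_lt_iff₀ hμ] at hn
        exact hn
      nlinarith
    have h7 := hind μ hμ n 0 1 h0 h4 le_rfl zero_le_one le_rfl h5
    simpa using h7
  by_contra hcon
  push Not at hcon
  set ε : ℝ := -Λ - ((g' 1 - g' 0) - (g 1 - g 0)) with hε
  have hε0 : 0 < ε := by linarith
  have hβ : β 0 ≤ β 1 := hmono 0 1 h0 h4 le_rfl zero_lt_one le_rfl
  have h5 := hfin (ε / (2 * (β 1 - β 0 + 1))) (by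
    have : 0 < β 1 - β 0 + 1 := by linarith
    positivity)
  have h6 : 0 < β 1 - β 0 + 1 := by linarith
  have h7 : ε / (2 * (β 1 - β 0 + 1)) * (β 1 - β 0) ≤ ε / 2 := by
    have : ε / (2 * (β 1 - β 0 + 1)) * (β 1 - β 0) = ε / 2 * ((β 1 - β 0) / (β 1 - β 0 + 1)) := by
      field_simp
    rw [this]
    have h8 : (β 1 - β 0) / (β 1 - β 0 + 1) ≤ 1 := by
      rw [div_le_one h6]
      linarith
    nlinarith
  linarith

variable {d : ℕ} {ι : Type*} [Fintype ι] [Nonempty ι] {K : Set (E d)}

/-- The correlation of the moments of the cells of a selection with a family of sites. -/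
noncomputable def Pval (K : Set (E d)) (sel : E d → ι) (b : ι → E d) : ℝ :=
  ∑ i, ⟪mom K sel i, b i⟫

theorem inner_mom (hK : IsCompact K) (sel : E d → ι) (i : ι) (v : E d) :
    ⟪mom K sel i, v⟫ = ∫ x in cell K sel i, ⟪x, v⟫ := by
  unfold mom
  rw [real_inner_comm, ← integral_inner (integrableOn_id_cell hK i) v]
  simp_rw [real_inner_comm]

theorem continuous_inner_right (v : E d) : Continuous fun x : E d => ⟪x, v⟫ := by
  fun_prop

/-- Duality bound for a competitor selection. -/
theorem Pval_le (hK : IsCompact K) {sel : E d → ι} (hsel : ∀ i, MeasurableSet (sel ⁻¹' {i}))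
    {m : ι → ℝ} (hmass : ∀ i, (volume (cell K sel i)).toReal = m i) (b : ι → E d) (ψ : ι → ℝ) :
    Pval K sel b ≤ (∫ x in K, Mx b ψ x) + ∑ i, m i * ψ i := by
  have hfin : ∀ i, volume (cell K sel i) ≠ ⊤ := fun i =>
    ((measure_mono (cell_subset K sel i)).trans_lt hK.measure_lt_top).ne
  have h1 : ∀ i, ⟪mom K sel i, b i⟫ ≤ (∫ x in cell K sel i, Mx b ψ x) + m i * ψ i := by
    intro i
    rw [inner_mom hK]
    have h2 : m i * ψ i = ∫ _x in cell K sel i, ψ i := by
      rw [setIntegral_const, smul_eq_mul, Measure.real, hmass]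
    rw [h2, ← integral_add (integrableOn_cell hK (continuous_Mx b ψ) i)
      (integrableOn_const (hfin i))]
    apply setIntegral_mono_on (integrableOn_cell hK (continuous_inner_right _) i)
      ((integrableOn_cell hK (continuous_Mx b ψ) i).add (integrableOn_const (hfin i)))
      (measurableSet_cell hK hsel i)
    intro x _
    have := le_Mx b ψ x i
    simp only [Pi.add_apply]
    linarith
  unfold Pval
  calc ∑ i, ⟪mom K sel i, b i⟫
      ≤ ∑ i, ((∫ x in cell K sel i, Mx b ψ x) + m i * ψ i) := Finset.sum_le_sum fun i _ => h1 i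
    _ = _ := by
      rw [Finset.sum_add_distrib, sum_integral_cell hK hsel (continuous_Mx b ψ)]

/-- Duality equality for a configuration. -/
theorem Pval_eq (hK : IsCompact K) {b : ι → E d} {m ψ : ι → ℝ} {sel : E d → ι}
    (h : IsCfg K b m ψ sel) : Pval K sel b = (∫ x in K, Mx b ψ x) + ∑ i, m i * ψ i := by
  have hfin : ∀ i, volume (cell K sel i) ≠ ⊤ := fun i =>
    ((measure_mono (cell_subset K sel i)).trans_lt hK.measure_lt_top).ne
  have h1 : ∀ i, ⟪mom K sel i, b i⟫ = (∫ x in cell K sel i, Mx b ψ x) + m i * ψ i := by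
    intro i
    rw [inner_mom hK]
    have h2 : m i * ψ i = ∫ _x in cell K sel i, ψ i := by
      rw [setIntegral_const, smul_eq_mul, Measure.real, h.mass]
    rw [h2, ← integral_add (integrableOn_cell hK (continuous_Mx b ψ) i)
      (integrableOn_const (hfin i))]
    apply setIntegral_congr_fun (measurableSet_cell hK h.meas i)
    intro x hx
    have hxi : sel x = i := hx.2
    have := h.max x
    rw [hxi] at this
    simp only
    linarith
  unfold Pval
  rw [Finset.sum_congr rfl fun i _ => h1 i, Finset.sum_add_distrib,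
    sum_integral_cell hK h.meas (continuous_Mx b ψ)]

/-- A configuration is optimal among selections with the same masses. -/
theorem Pval_opt (hK : IsCompact K) {b : ι → E d} {m ψ : ι → ℝ} {sel : E d → ι}
    (h : IsCfg K b m ψ sel) {σ : E d → ι} (hσ : ∀ i, MeasurableSet (σ ⁻¹' {i}))
    (hmass : ∀ i, (volume (cell K σ i)).toReal = m i) : Pval K σ b ≤ Pval K sel b := by
  rw [Pval_eq hK h]
  exact Pval_le hK hσ hmass b ψ

/-- `Pval` is affine in the sites. -/
theorem Pval_add_smul (K : Set (E d)) (σ : E d → ι) (u v : ι → E d) (t : ℝ) :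
    Pval K σ (fun i => u i + t • v i) = Pval K σ u + t * ∑ i, ⟪mom K σ i, v i⟫ := by
  unfold Pval
  rw [Finset.mul_sum, ← Finset.sum_add_distrib]
  refine Finset.sum_congr rfl fun i _ => ?_
  rw [inner_add_right, inner_smul_right]

/-- The straight path between two families of sites. -/
def yPath (b b' : ι → E d) (t : ℝ) (i : ι) : E d := b i + t • (b' i - b i)

theorem yPath_zero (b b' : ι → E d) : yPath b b' 0 = b := by
  funext i
  simp [yPath]

theorem yPath_one (b b' : ι → E d) : yPath b b' 1 = b' := by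
  funext i
  simp [yPath]

theorem yPath_eq_add (b b' : ι → E d) (s t : ℝ) :
    yPath b b' t = fun i => yPath b b' s i + (t - s) • (b' i - b i) := by
  funext i
  simp only [yPath, sub_smul]
  abel

/-- The times at which two sites collide form a finite set. -/
theorem finite_bad {b b' : ι → E d} (hb : Function.Injective b) :
    {t : ℝ | ¬ Function.Injective (yPath b b' t)}.Finite := by
  classical
  have hsub : {t : ℝ | ¬ Function.Injective (yPath b b' t)} ⊆
      ⋃ p ∈ {p : ι × ι | p.1 ≠ p.2}, {t : ℝ | yPath b b' t p.1 = yPath b b' t p.2} := by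
    intro t ht
    simp only [mem_setOf_eq, Function.Injective] at ht
    push Not at ht
    obtain ⟨i, j, hij, hne⟩ := ht
    simp only [mem_iUnion, mem_setOf_eq, exists_prop]
    exact ⟨(i, j), hne, hij⟩
  refine Set.Finite.subset ?_ hsub
  refine Set.Finite.biUnion (Set.toFinite _) ?_
  rintro ⟨i, j⟩ hne
  apply Set.Subsingleton.finite
  intro s hs t ht
  simp only [mem_setOf_eq] at hs ht
  by_contra hst
  have h1 : (s - t) • ((b' i - b i) - (b' j - b j)) = 0 := by
    have h2 : yPath b b' s i - yPath b b' t i = yPath b b' s j - yPath b b' t j := by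
      rw [hs, ht]
    simp only [yPath] at h2
    have h3 : (s - t) • (b' i - b i) = (s - t) • (b' j - b j) := by
      rw [sub_smul, sub_smul]
      have h4 : b i + s • (b' i - b i) - (b i + t • (b' i - b i)) =
          s • (b' i - b i) - t • (b' i - b i) := by abel
      have h5 : b j + s • (b' j - b j) - (b j + t • (b' j - b j)) =
          s • (b' j - b j) - t • (b' j - b j) := by abel
      rw [← h4, ← h5, h2]
    rw [smul_sub, h3, sub_self]
  have h6 : (b' i - b i) - (b' j - b j) = 0 := by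
    rcases smul_eq_zero.mp h1 with h | h
    · exact absurd (sub_eq_zero.mp h) hst
    · exact h
  have h7 : b i - b j = 0 := by
    have h8 : yPath b b' s i - yPath b b' s j = 0 := sub_eq_zero.mpr hs
    simp only [yPath] at h8
    have h9 : b i + s • (b' i - b i) - (b j + s • (b' j - b j)) =
        (b i - b j) + s • ((b' i - b i) - (b' j - b j)) := by
      simp only [smul_sub]
      abel
    rw [h9, h6, smul_zero, add_zero] at h8
    exact h8
  exact hne (hb (sub_eq_zero.mp h7))

/-- **The mixed inequality along the path.** -/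
theorem path_ineq (hK : IsCompact K) (hconv : Convex ℝ K) {R : ℝ} (hR : ∀ x ∈ K, ‖x‖ ≤ R)
    (hR0 : 0 ≤ R) {b b' : ι → E d} (hb : Function.Injective b) (hb' : Function.Injective b')
    {m n ψ' φ : ι → ℝ} {sel' τ : E d → ι} (hm : ∀ i, 0 < m i) (hn : ∀ i, 0 < n i)
    (hsum : ∑ i, m i = (volume K).toReal) (hsum' : ∑ i, n i = (volume K).toReal)
    (hle : ∀ i, m i / 4 ≤ n i ∧ n i ≤ 4 * m i)
    (h' : IsCfg K b' m ψ' sel') (h0 : IsCfg K b n φ τ) :
    -(10 * R * Real.sqrt (∑ i, (n i - m i) ^ 2 / m i) *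
        Real.sqrt (∑ i, m i * ‖b' i - b i‖ ^ 2)) ≤
      ∑ i, (n i - m i) * (ψ' i - φ i) := by
  classical
  have hpos : volume K ≠ 0 := by
    intro h
    have h1 : 0 < ∑ i, m i := Finset.sum_pos (fun i _ => hm i) Finset.univ_nonempty
    rw [hsum, h] at h1
    simp at h1
  set y := yPath b b' with hy
  set B := {t : ℝ | ¬ Function.Injective (y t)} with hB
  have hBfin : B.Finite := finite_bad hb
  have hB0 : (0 : ℝ) ∉ B := by
    simp only [hB, mem_setOf_eq, not_not, hy, yPath_zero]
    exact hb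
  have hB1 : (1 : ℝ) ∉ B := by
    simp only [hB, mem_setOf_eq, not_not, hy, yPath_one]
    exact hb'
  have hcfg : ∀ t, t ∉ B → ∃ (ψ : ι → ℝ) (σ : E d → ι), IsCfg K (y t) m ψ σ := by
    intro t ht
    have ht' : Function.Injective (y t) := by simpa [hB] using ht
    exact exists_cfg hK hpos ht' hm hsum
  have hcfg' : ∀ t, t ∉ B → ∃ (ψ : ι → ℝ) (σ : E d → ι), IsCfg K (y t) n ψ σ := by
    intro t ht
    have ht' : Function.Injective (y t) := by simpa [hB] using ht
    exact exists_cfg hK hpos ht' hn hsum'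
  choose! Ψ S hS using hcfg
  choose! Φ T hT using hcfg'
  set δ : ι → E d := fun i => b' i - b i with hδ
  set g : ℝ → ℝ := fun t => Pval K (S t) (y t) with hg
  set g' : ℝ → ℝ := fun t => Pval K (T t) (y t) with hg'
  set β : ℝ → ℝ := fun t => ∑ i, ⟪mom K (S t) i, δ i⟫ with hβ
  set β' : ℝ → ℝ := fun t => ∑ i, ⟪mom K (T t) i, δ i⟫ with hβ'
  -- the subgradient inequalities
  have sub1 : ∀ s t, s ∉ B → t ∉ B → (t - s) * β s ≤ g t - g s := by
    intro s t hs ht
    have h1 := Pval_opt hK (hS t ht) (hS s hs).meas (hS s hs).mass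
    have h2 : Pval K (S s) (y t) = g s + (t - s) * β s := by
      rw [hy, yPath_eq_add b b' s t, Pval_add_smul]
    simp only [hg] at *
    linarith
  have sub2 : ∀ s t, s ∉ B → t ∉ B → g t - g s ≤ (t - s) * β t := by
    intro s t hs ht
    have h3 := sub1 t s ht hs
    nlinarith
  have sub1' : ∀ s t, s ∉ B → t ∉ B → (t - s) * β' s ≤ g' t - g' s := by
    intro s t hs ht
    have h1 := Pval_opt hK (hT t ht) (hT s hs).meas (hT s hs).mass
    have h2 : Pval K (T s) (y t) = g' s + (t - s) * β' s := by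
      rw [hy, yPath_eq_add b b' s t, Pval_add_smul]
    simp only [hg'] at *
    linarith
  set Λ : ℝ := 10 * R * Real.sqrt (∑ i, (n i - m i) ^ 2 / m i) *
        Real.sqrt (∑ i, m i * ‖b' i - b i‖ ^ 2) with hΛ
  have hlip : ∀ s, s ∉ B → -Λ ≤ β' s - β s := by
    intro s hs
    have hs' : Function.Injective (y s) := by simpa [hB] using hs
    have h1 := lip_moment hK hconv hR hR0 hs' (hS s hs) (hT s hs) hm hle δ
    have h2 : β' s - β s = ∑ i, ⟪mom K (T s) i - mom K (S s) i, δ i⟫ := by
      simp only [hβ, hβ', inner_sub_left, Finset.sum_sub_distrib]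
    rw [h2]
    exact (abs_le.mp h1).1
  have htele := tele hBfin (g := g) (g' := g') (β := β) (β' := β') (Λ := Λ)
    (fun s t hs ht _ _ _ => sub1' s t hs ht) (fun s t hs ht _ _ _ => sub2 s t hs ht)
    (fun s t hs ht _ _ _ => sub1 s t hs ht) (fun s hs _ _ => hlip s hs) hB0 hB1
  -- the endpoints
  have hS1 := hS 1 hB1
  have hT1 := hT 1 hB1
  have hS0 := hS 0 hB0
  have hT0 := hT 0 hB0
  have hy1 : y 1 = b' := yPath_one b b'
  have hy0 : y 0 = b := yPath_zero b b'
  rw [hy1] at hS1 hT1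
  rw [hy0] at hS0 hT0
  have e1 : g 1 = (∫ x in K, Mx b' ψ' x) + ∑ i, m i * ψ' i := by
    simp only [hg, hy1]
    apply le_antisymm
    · exact Pval_le hK hS1.meas hS1.mass b' ψ'
    · rw [← Pval_eq hK h']
      exact Pval_opt hK hS1 h'.meas h'.mass
  have e2 : g' 1 ≤ (∫ x in K, Mx b' ψ' x) + ∑ i, n i * ψ' i := by
    simp only [hg', hy1]
    exact Pval_le hK hT1.meas hT1.mass b' ψ'
  have e3 : g 0 ≤ (∫ x in K, Mx b φ x) + ∑ i, m i * φ i := by
    simp only [hg, hy0]
    exact Pval_le hK hS0.meas hS0.mass b φ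
  have e4 : g' 0 = (∫ x in K, Mx b φ x) + ∑ i, n i * φ i := by
    simp only [hg', hy0]
    apply le_antisymm
    · exact Pval_le hK hT0.meas hT0.mass b φ
    · rw [← Pval_eq hK h0]
      exact Pval_opt hK hT0 h0.meas h0.mass
  have e5 : ∑ i, (n i - m i) * (ψ' i - φ i) =
      (∑ i, n i * ψ' i) - ∑ i, m i * ψ' i - ((∑ i, n i * φ i) - ∑ i, m i * φ i) := by
    rw [← Finset.sum_sub_distrib, ← Finset.sum_sub_distrib, ← Finset.sum_sub_distrib]
    refine Finset.sum_congr rfl fun i _ => ?_
    ring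
  rw [e5]
  linarith

/-- **Variance bound for the weights.** The weights of two configurations with the same masses, at
the families of sites `b` and `b'`, differ in the weighted mean-square by at most the weighted
mean-square distance of the sites. -/
theorem weights_var (hK : IsCompact K) (hconv : Convex ℝ K) (hint : (interior K).Nonempty) {R : ℝ}
    (hR : ∀ x ∈ K, ‖x‖ ≤ R) {b b' : ι → E d} (hb : Function.Injective b)
    (hb' : Function.Injective b') {m ψ ψ' : ι → ℝ} {sel sel' : E d → ι} (hm : ∀ i, 0 < m i)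
    (hsum : ∑ i, m i = (volume K).toReal) (h : IsCfg K b m ψ sel) (h' : IsCfg K b' m ψ' sel')
    (gb : ℝ) (hgb : ∑ i, m i * (ψ' i - ψ i - gb) = 0) :
    ∑ i, m i * (ψ' i - ψ i - gb) ^ 2 ≤ 100 * R ^ 2 * ∑ i, m i * ‖b' i - b i‖ ^ 2 := by
  classical
  have hpos : volume K ≠ 0 := by
    intro h
    have h1 : 0 < ∑ i, m i := Finset.sum_pos (fun i _ => hm i) Finset.univ_nonempty
    rw [hsum, h] at h1
    simp at h1
  have hR0 : 0 ≤ R := by
    obtain ⟨x, hx⟩ := hint
    exact (norm_nonneg x).trans (hR x (interior_subset hx))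
  set e : ι → ℝ := fun i => ψ' i - ψ i - gb with he
  set s : ι → ℝ := fun i => -(m i * e i) with hs
  set V : ℝ := ∑ i, m i * e i ^ 2 with hV
  set W : ℝ := ∑ i, m i * ‖b' i - b i‖ ^ 2 with hW
  have hV0 : 0 ≤ V := Finset.sum_nonneg fun i _ => mul_nonneg (hm i).le (sq_nonneg _)
  have hW0 : 0 ≤ W := Finset.sum_nonneg fun i _ => mul_nonneg (hm i).le (sq_nonneg _)
  have hssum : ∑ i, s i = 0 := by
    simp only [hs, Finset.sum_neg_distrib]
    rw [hgb, neg_zero]
  set E0 : ℝ := 1 + ∑ i, |e i| with hE0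
  have hE0pos : 0 < E0 := by
    have : 0 ≤ ∑ i, |e i| := Finset.sum_nonneg fun i _ => abs_nonneg _
    linarith
  have hele : ∀ i, |e i| ≤ E0 := by
    intro i
    have h1 : |e i| ≤ ∑ j, |e j| :=
      Finset.single_le_sum (f := fun j => |e j|) (fun j _ => abs_nonneg _) (Finset.mem_univ i)
    linarith
  set ε : ℕ → ℝ := fun k => (1 / (2 * E0)) * (1 / ((k : ℝ) + 1)) with hε
  have hεpos : ∀ k, 0 < ε k := by
    intro k
    have : (0 : ℝ) < (k : ℝ) + 1 := by positivity
    simp only [hε]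
    positivity
  have hεle : ∀ k, ε k ≤ 1 / (2 * E0) := by
    intro k
    have h1 : (1 : ℝ) ≤ (k : ℝ) + 1 := by
      have : (0 : ℝ) ≤ k := Nat.cast_nonneg k
      linarith
    have h2 : 1 / ((k : ℝ) + 1) ≤ 1 := by
      rw [div_le_one (by linarith)]
      exact h1
    have h3 : 0 < 1 / (2 * E0) := by positivity
    simp only [hε]
    nlinarith
  have hεlim : Filter.Tendsto ε Filter.atTop (nhds 0) := by
    have h1 := tendsto_one_div_add_atTop_nhds_zero_nat (𝕜 := ℝ)
    have h2 := h1.const_mul (1 / (2 * E0))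
    simpa [hε] using h2
  set n : ℕ → ι → ℝ := fun k i => m i + ε k * s i with hn
  have hnform : ∀ k i, n k i = m i * (1 - ε k * e i) := by
    intro k i
    simp only [hn, hs]
    ring
  have hεe : ∀ k i, |ε k * e i| ≤ 1 / 2 := by
    intro k i
    rw [abs_mul, abs_of_pos (hεpos k)]
    calc ε k * |e i| ≤ 1 / (2 * E0) * E0 :=
          mul_le_mul (hεle k) (hele i) (abs_nonneg _) (by positivity)
      _ = 1 / 2 := by field_simp
  have hnpos : ∀ k i, 0 < n k i := by
    intro k i
    rw [hnform]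
    have := (abs_le.mp (hεe k i)).2
    exact mul_pos (hm i) (by linarith)
  have hnle : ∀ k i, m i / 4 ≤ n k i ∧ n k i ≤ 4 * m i := by
    intro k i
    rw [hnform]
    have h1 := abs_le.mp (hεe k i)
    have h2 := hm i
    constructor <;> nlinarith [h1.1, h1.2]
  have hnsum : ∀ k, ∑ i, n k i = (volume K).toReal := by
    intro k
    simp only [hn]
    rw [Finset.sum_add_distrib, ← Finset.mul_sum, hssum, mul_zero, add_zero, hsum]
  have hcfg : ∀ k, ∃ (φ : ι → ℝ) (τ : E d → ι), IsCfg K b (n k) φ τ := fun k =>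
    exists_cfg hK hpos hb (hnpos k) (hnsum k)
  choose Φ T hT using hcfg
  have hlim : Filter.Tendsto n Filter.atTop (nhds m) := by
    rw [tendsto_pi_nhds]
    intro i
    have h1 := (hεlim.mul_const (s i)).const_add (m i)
    simpa [hn] using h1
  have hwl := weight_limit hK hconv hint hb h hm hlim hT s hssum
  -- the inequality for each `k`
  have hk : ∀ k, -(10 * R * Real.sqrt V * Real.sqrt W) ≤
      ∑ i, s i * ψ' i - ∑ i, s i * Φ k i := by
    intro k
    have h1 := path_ineq hK hconv hR hR0 hb hb' hm (hnpos k) hsum (hnsum k) (hnle k) h' (hT k)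
    have h2 : ∑ i, (n k i - m i) ^ 2 / m i = ε k ^ 2 * V := by
      rw [hV, Finset.mul_sum]
      refine Finset.sum_congr rfl fun i _ => ?_
      have := (hm i).ne'
      simp only [hn, hs]
      field_simp
      ring
    have h3 : Real.sqrt (∑ i, (n k i - m i) ^ 2 / m i) = ε k * Real.sqrt V := by
      rw [h2, Real.sqrt_mul (sq_nonneg _), Real.sqrt_sq (hεpos k).le]
    have h4 : ∑ i, (n k i - m i) * (ψ' i - Φ k i) =
        ε k * (∑ i, s i * ψ' i - ∑ i, s i * Φ k i) := by
      rw [← Finset.sum_sub_distrib, Finset.mul_sum]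
      refine Finset.sum_congr rfl fun i _ => ?_
      simp only [hn]
      ring
    rw [h3, h4] at h1
    have h5 := hεpos k
    have h6 : ε k * (-(10 * R * Real.sqrt V * Real.sqrt W)) ≤
        ε k * (∑ i, s i * ψ' i - ∑ i, s i * Φ k i) := by
      calc ε k * (-(10 * R * Real.sqrt V * Real.sqrt W))
          = -(10 * R * (ε k * Real.sqrt V) * Real.sqrt W) := by ring
        _ ≤ _ := h1
    exact le_of_mul_le_mul_left h6 h5
  have hlimit : -(10 * R * Real.sqrt V * Real.sqrt W) ≤
      ∑ i, s i * ψ' i - ∑ i, s i * ψ i :=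
    ge_of_tendsto' (tendsto_const_nhds.sub hwl) hk
  have hid : ∑ i, s i * ψ' i - ∑ i, s i * ψ i = -V := by
    have h1 : ∑ i, s i * ψ' i - ∑ i, s i * ψ i = ∑ i, (s i * e i + gb * s i) := by
      rw [← Finset.sum_sub_distrib]
      refine Finset.sum_congr rfl fun i _ => ?_
      simp only [he]
      ring
    rw [h1, Finset.sum_add_distrib, ← Finset.mul_sum, hssum, mul_zero, add_zero, hV,
      ← Finset.sum_neg_distrib]
    refine Finset.sum_congr rfl fun i _ => ?_
    simp only [hs]
    ring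
  rw [hid] at hlimit
  have hVle : V ≤ 10 * R * Real.sqrt V * Real.sqrt W := by linarith
  have ha : Real.sqrt V * Real.sqrt V = V := Real.mul_self_sqrt hV0
  have hc : Real.sqrt W * Real.sqrt W = W := Real.mul_self_sqrt hW0
  have ha0 : 0 ≤ Real.sqrt V := Real.sqrt_nonneg V
  have hc0 : 0 ≤ Real.sqrt W := Real.sqrt_nonneg W
  have hgoal : V ≤ 100 * R ^ 2 * W := by
    rcases ha0.eq_or_lt with h0 | h0
    · have : V = 0 := by rw [← ha, ← h0]; ring
      rw [this]
      positivity
    · have h1 : Real.sqrt V ≤ 10 * R * Real.sqrt W := by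
        have : Real.sqrt V * Real.sqrt V ≤ (10 * R * Real.sqrt W) * Real.sqrt V := by
          rw [ha]
          calc V ≤ 10 * R * Real.sqrt V * Real.sqrt W := hVle
            _ = _ := by ring
        exact le_of_mul_le_mul_right this h0
      have h2 : V ≤ (10 * R * Real.sqrt W) * (10 * R * Real.sqrt W) := by
        rw [← ha]
        exact mul_le_mul h1 h1 ha0 (by positivity)
      calc V ≤ (10 * R * Real.sqrt W) * (10 * R * Real.sqrt W) := h2
        _ = 100 * R ^ 2 * (Real.sqrt W * Real.sqrt W) := by ring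
        _ = _ := by rw [hc]
  exact hgoal

end Vale.Agent.Lib.P074H
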