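import Vale.Agent.Lib.P074H.Path
import Vale.Agent.Lib.P074.Core

open MeasureTheory Set
open scoped ENNReal NNReal RealInnerProductSpace

namespace Vale.Agent.Lib.P074H

open Vale.Agent.Lib.P074

variable {d : ℕ} {ι : Type*} [Fintype ι] [Nonempty ι] {K : Set (E d)}

/-- **The sandwich estimate.** The difference of the two max-affine potentials lies, at every point,
between the affine functions of the labels of the point in the two configurations. -/
theorem pot_of_var' (hK : IsCompact K) {R : ℝ} (hR : ∀ x ∈ K, ‖x‖ ≤ R) {b b' : ι → E d}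
    {m ψ ψ' : ι → ℝ} {sel sel' : E d → ι} (h : IsCfg K b m ψ sel) (h' : IsCfg K b' m ψ' sel')
    (c : ℝ) :
    ∫ x in K, (Mx b' ψ' x - Mx b ψ x - c) ^ 2 ≤
      4 * R ^ 2 * ∑ i, m i * ‖b' i - b i‖ ^ 2 + 4 * ∑ i, m i * (ψ' i - ψ i + c) ^ 2 := by
  set A : ι → ℝ := fun i => 2 * R ^ 2 * ‖b' i - b i‖ ^ 2 + 2 * (ψ' i - ψ i + c) ^ 2 with hA
  have hpt : ∀ x ∈ K, (Mx b' ψ' x - Mx b ψ x - c) ^ 2 ≤ A (sel x) + A (sel' x) := by
    intro x hx
    have hxR := hR x hx
    have key : ∀ i, (⟪x, b' i - b i⟫ - (ψ' i - ψ i) - c) ^ 2 ≤ A i := by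
      intro i
      have h1 : |⟪x, b' i - b i⟫| ≤ R * ‖b' i - b i‖ :=
        (abs_real_inner_le_norm _ _).trans
          (mul_le_mul_of_nonneg_right hxR (norm_nonneg _))
      have h2 : ⟪x, b' i - b i⟫ ^ 2 ≤ (R * ‖b' i - b i‖) ^ 2 := by
        rw [← sq_abs]
        exact pow_le_pow_left₀ (abs_nonneg _) h1 2
      simp only [hA]
      nlinarith [sq_nonneg (⟪x, b' i - b i⟫ + (ψ' i - ψ i + c))]
    have hlow : ⟪x, b' (sel x) - b (sel x)⟫ - (ψ' (sel x) - ψ (sel x)) - c ≤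
        Mx b' ψ' x - Mx b ψ x - c := by
      have h1 := le_Mx b' ψ' x (sel x)
      have h2 := h.max x
      rw [inner_sub_right]
      linarith
    have hup : Mx b' ψ' x - Mx b ψ x - c ≤
        ⟪x, b' (sel' x) - b (sel' x)⟫ - (ψ' (sel' x) - ψ (sel' x)) - c := by
      have h1 := le_Mx b ψ x (sel' x)
      have h2 := h'.max x
      rw [inner_sub_right]
      linarith
    have h3 := key (sel x)
    have h4 := key (sel' x)
    set u := ⟪x, b' (sel x) - b (sel x)⟫ - (ψ' (sel x) - ψ (sel x)) - c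
    set v := ⟪x, b' (sel' x) - b (sel' x)⟫ - (ψ' (sel' x) - ψ (sel' x)) - c
    set w := Mx b' ψ' x - Mx b ψ x - c
    have h5 : w ^ 2 ≤ u ^ 2 + v ^ 2 := by
      rcases le_total 0 w with h0 | h0
      · have : w ^ 2 ≤ v ^ 2 := pow_le_pow_left₀ h0 hup 2
        nlinarith [sq_nonneg u]
      · have : (-w) ^ 2 ≤ (-u) ^ 2 := pow_le_pow_left₀ (by linarith) (by linarith) 2
        nlinarith [sq_nonneg v]
    linarith
  obtain ⟨hi1, he1⟩ := Vale.Agent.Lib.P074H.integral_label hK h A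
  obtain ⟨hi2, he2⟩ := Vale.Agent.Lib.P074H.integral_label hK h' A
  have hcont : Continuous fun x => (Mx b' ψ' x - Mx b ψ x - c) ^ 2 :=
    (((continuous_Mx b' ψ').sub (continuous_Mx b ψ)).sub continuous_const).pow 2
  have hmono : ∫ x in K, (Mx b' ψ' x - Mx b ψ x - c) ^ 2 ≤ ∫ x in K, (A (sel x) + A (sel' x)) :=
    setIntegral_mono_on (hcont.continuousOn.integrableOn_compact hK) (hi1.add hi2)
      hK.isClosed.measurableSet hpt
  rw [integral_add hi1 hi2, he1, he2] at hmono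
  have e : ∑ i, m i * A i + ∑ i, m i * A i =
      4 * R ^ 2 * ∑ i, m i * ‖b' i - b i‖ ^ 2 + 4 * ∑ i, m i * (ψ' i - ψ i + c) ^ 2 := by
    simp only [hA, Finset.mul_sum]
    rw [← Finset.sum_add_distrib, ← Finset.sum_add_distrib]
    refine Finset.sum_congr rfl fun i _ => ?_
    ring
  linarith

/-- **The potential estimate**, in the normalisation of probability masses. -/
theorem finite_pot {K : Set (E d)} (hK : IsCompact K) (hconv : Convex ℝ K)
    (hint : (interior K).Nonempty) {RK : ℝ} (hRK : ∀ x ∈ K, ‖x‖ ≤ RK) {b b' : ι → E d}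
    (hinj : Function.Injective b) (hinj' : Function.Injective b') {ψ ψ' : ι → ℝ}
    {sel sel' : E d → ι} (hm : ∀ i, MeasurableSet (sel ⁻¹' {i}))
    (hm' : ∀ i, MeasurableSet (sel' ⁻¹' {i}))
    (hsel : ∀ x, Mx b ψ x = ⟪x, b (sel x)⟫ - ψ (sel x))
    (hsel' : ∀ x, Mx b' ψ' x = ⟪x, b' (sel' x)⟫ - ψ' (sel' x)) {m : ι → ℝ}
    (hmpos : ∀ i, 0 < m i) (hsum : ∑ i, m i = 1)
    (hmass : ∀ i, uniformProb K (sel ⁻¹' {i}) = ENNReal.ofReal (m i))
    (hmass' : ∀ i, uniformProb K (sel' ⁻¹' {i}) = ENNReal.ofReal (m i)) :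
    ∃ c : ℝ, ∫ x, (Mx b' ψ' x - Mx b ψ x - c) ^ 2 ∂(uniformProb K) ≤
      808 * RK ^ 2 * ∑ i, m i * ‖b i - b' i‖ ^ 2 := by
  classical
  have hKm : MeasurableSet K := hK.isClosed.measurableSet
  have hVpos : 0 < volume K :=
    (isOpen_interior.measure_pos volume hint).trans_le (measure_mono interior_subset)
  have hVtop : volume K ≠ ⊤ := hK.measure_lt_top.ne
  set V : ℝ := (volume K).toReal with hV
  have hV0 : 0 < V := ENNReal.toReal_pos hVpos.ne' hVtop
  -- cell volumes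
  have hcell : ∀ σ : E d → ι, (∀ i, MeasurableSet (σ ⁻¹' {i})) →
      (∀ i, uniformProb K (σ ⁻¹' {i}) = ENNReal.ofReal (m i)) →
      ∀ i, (volume (cell K σ i)).toReal = V * m i := by
    intro σ hσ hσm i
    have h1 := hσm i
    unfold uniformProb at h1
    rw [Measure.smul_apply, smul_eq_mul, Measure.restrict_apply (hσ i)] at h1
    have h2 : volume (cell K σ i) = volume (σ ⁻¹' {i} ∩ K) := by
      unfold cell
      rw [inter_comm]
    rw [h2]
    have h3 := congrArg ENNReal.toReal h1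
    rw [ENNReal.toReal_mul, ENNReal.toReal_inv, ENNReal.toReal_ofReal (hmpos i).le] at h3
    rw [← hV] at h3
    field_simp at h3
    linarith
  set M : ι → ℝ := fun i => V * m i with hM
  have hMpos : ∀ i, 0 < M i := fun i => mul_pos hV0 (hmpos i)
  have hMsum : ∑ i, M i = (volume K).toReal := by
    simp only [hM]
    rw [← Finset.mul_sum, hsum, mul_one]
  have hc : IsCfg K b M ψ sel := ⟨hm, hsel, hcell sel hm hmass⟩
  have hc' : IsCfg K b' M ψ' sel' := ⟨hm', hsel', hcell sel' hm' hmass'⟩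
  set gb : ℝ := ∑ i, m i * (ψ' i - ψ i) with hgb
  have hgb0 : ∑ i, M i * (ψ' i - ψ i - gb) = 0 := by
    simp only [hM, mul_assoc]
    rw [← Finset.mul_sum]
    have : ∑ i, m i * (ψ' i - ψ i - gb) = ∑ i, m i * (ψ' i - ψ i) - gb * ∑ i, m i := by
      rw [Finset.mul_sum, ← Finset.sum_sub_distrib]
      refine Finset.sum_congr rfl fun i _ => ?_
      ring
    rw [this, hsum, mul_one, ← hgb, sub_self, mul_zero]
  have hvar := weights_var hK hconv hint hRK hinj hinj' hMpos hMsum hc hc' gb hgb0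
  have hpot := pot_of_var' hK hRK hc hc' (-gb)
  refine ⟨-gb, ?_⟩
  rw [integral_uniformProb, ← hV]
  have e1 : ∑ i, M i * (ψ' i - ψ i + -gb) ^ 2 = ∑ i, M i * (ψ' i - ψ i - gb) ^ 2 := by
    refine Finset.sum_congr rfl fun i _ => ?_
    ring
  rw [e1] at hpot
  have e2 : ∑ i, M i * ‖b' i - b i‖ ^ 2 = V * ∑ i, m i * ‖b i - b' i‖ ^ 2 := by
    rw [Finset.mul_sum]
    refine Finset.sum_congr rfl fun i _ => ?_
    simp only [hM]
    rw [norm_sub_rev]
    ring
  rw [e2] at hpot hvar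
  set W : ℝ := ∑ i, m i * ‖b i - b' i‖ ^ 2 with hW
  have hW0 : 0 ≤ W := Finset.sum_nonneg fun i _ => mul_nonneg (hmpos i).le (sq_nonneg _)
  rw [inv_mul_le_iff₀ hV0]
  have hbound : ∫ x in K, (Mx b' ψ' x - Mx b ψ x - (-gb)) ^ 2 ≤ 404 * RK ^ 2 * (V * W) := by
    nlinarith
  have hnn : 0 ≤ RK ^ 2 * (V * W) := by positivity
  nlinarith

end Vale.Agent.Lib.P074H
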